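import Crest.Agent.P345.Lap70
import Crest.Agent.P345HK34
import Crest.Agent.P345.Dual26b
import Crest.Agent.P345.Mds19x94

set_option autoImplicit false
set_option maxRecDepth 100000

/-! Row 345 (helper94): final assembly with helper19's small data. -/

namespace Crest.Agent.P345.Asm94

open Matrix Crest.Agent.P345Red Crest.Agent.P345HK34 Crest.Agent.P345.Dual26
open Crest.Quantum

def Cc : Fin 4 → Fin 6 → Fin 4 → ℤ := ![![![2, 0, 0, 0], ![0, -6, 0, 0], ![0, 0, 0, 0], ![0, 0, 0, 0], ![0, 0, 4, 0], ![0, 0, 0, -4]],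
  ![![0, 0, 6, -6], ![0, 0, -2, 2], ![0, 0, -2, 4], ![6, -6, -4, -2], ![3, 3, 2, 4], ![3, 3, -4, 2]],
  ![![0, 0, 6, 6], ![0, 0, -2, -2], ![6, -6, 4, 2], ![0, 0, -2, 4], ![3, 3, 4, -2], ![-3, -3, 2, 4]],
  ![![1, 0, 0, 0], ![0, 3, 0, 0], ![0, 0, 1, 1], ![0, 0, 1, -1], ![0, 0, 0, 0], ![0, 0, 0, 0]]]

def ww : Fin 20 → Fin 4 → ℤ := ![![34374, 0, 0, 1], ![34375, 0, 0, 1], ![31071, 25372, 58768, 1], ![19037, 46286, 31006, 1], ![35718, 35731, 6707, 1], ![8070, 23855, 27078, 1], ![19037, 55381, 40809, 1], ![31071, 49096, 46355, 1], ![44427, 25755, 68606, 1], ![44427, 3268, 36843, 1], ![8070, 17068, 64237, 1], ![55063, 38393, 52154, 1], ![35718, 33038, 31896, 1], ![44427, 39726, 32049, 1], ![8070, 27826, 46183, 1], ![35718, 68729, 30146, 1], ![31071, 63030, 32375, 1], ![19037, 35831, 65683, 1], ![55063, 6146, 53257, 1], ![55063, 24210, 32087, 1]]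

def zz : Fin 15 → Fin 4 → ℤ := ![![2, 0, 0, 2], ![-2, 1, -1, -2], ![-1, -2, 0, 1], ![-1, 1, 2, -2], ![2, -1, -2, -1], ![1, 0, -1, 1], ![-1, -2, -1, 2], ![2, 1, -1, -1], ![-2, -2, -1, -1], ![-1, -1, 0, 0], ![-1, 2, -1, -1], ![-1, 1, 0, -2], ![0, 1, -1, -1], ![0, -2, 0, 0], ![2, 2, -2, 2]]

def Bi : Fin 15 → Fin 15 → ℤ := ![![17295, 11455, 65593, 64291, 35383, 20202, 3835, 55084, 53313, 28676, 30679, 34365, 61545, 14549, 21506],
  ![16776, 23236, 42724, 21718, 31975, 24119, 28014, 13214, 64654, 56376, 32665, 22653, 66970, 8041, 8042],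
  ![17483, 5058, 64987, 57556, 43585, 57594, 16885, 8136, 46662, 47042, 4857, 47299, 52834, 8139, 46782],
  ![57309, 65319, 68577, 56426, 19801, 29104, 6852, 37671, 5243, 66728, 53238, 5896, 2337, 44276, 51133],
  ![4976, 61401, 35388, 35751, 43449, 28601, 45797, 65402, 21978, 26172, 22562, 24843, 37944, 24270, 46800],
  ![29898, 18255, 50513, 20282, 65305, 28734, 38715, 32406, 55853, 49449, 54609, 33635, 47984, 42106, 53438],
  ![7685, 13689, 49491, 9648, 48529, 2311, 3959, 45682, 31905, 64945, 2267, 6168, 1188, 15636, 40182],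
  ![9469, 51031, 20116, 15834, 20238, 43354, 23836, 45835, 14158, 41139, 27825, 49355, 24870, 3326, 33784],
  ![38334, 67438, 9871, 49538, 46868, 35888, 22509, 32042, 32409, 4930, 28879, 4851, 65812, 59278, 59204],
  ![13806, 43411, 64042, 36292, 30610, 37475, 8002, 10995, 49606, 33790, 57898, 39213, 1821, 11692, 43221],
  ![3605, 42597, 7538, 43105, 22070, 38882, 17037, 12764, 36506, 23739, 64750, 4777, 1956, 34839, 48166],
  ![60147, 50348, 56062, 46603, 29674, 66912, 4815, 3797, 46728, 54690, 32556, 33206, 44079, 31426, 53619],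
  ![32239, 47219, 36020, 45407, 48077, 32102, 13387, 56048, 44064, 21633, 65144, 47288, 52528, 18100, 21812],
  ![37013, 50464, 11000, 37971, 52624, 37621, 6959, 4869, 34436, 44658, 38647, 54625, 40088, 49639, 47038],
  ![43558, 31123, 23827, 52233, 39609, 8824, 10772, 28317, 8404, 17789, 9425, 66745, 44372, 57108, 20234]]

theorem hC : ∀ i j k l, ∑ r, Cc i r k * Cc j r l = ∑ r, Cc i r l * Cc j r k := by
  decide +kernel

theorem hB : ∀ i c, ((∑ j, Bi i j * Lap70.Dz Cc (zz j) c) - if i = c then 1 else 0) % ((68749 : ℕ) : ℤ) = 0 := by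
  decide +kernel

theorem hMx : ∀ i c, Lap70.Dz Cc (ww i) c % ((68749 : ℕ) : ℤ) = 0 := by
  decide +kernel

theorem hx : ∀ (i : Fin 20) (a : Fin 10),
    ((68749 : ℕ) : ℤ) ∣ Lap70.sq (ww i) a - (Mds19x94.xN i a : ℤ) := by
  decide +kernel

theorem hne0 : ∃ m y : Fin 10, ∑ x, Lz Cc (0, 1) m x * Kz Cc (2, 3) x y ≠ 0 := by
  decide +kernel


theorem hne : ∃ j i, L Cc j * K Cc i ≠ 0 := by
  obtain ⟨m, y, h⟩ := hne0
  refine ⟨(0, 1), (2, 3), fun h0 => h ?_⟩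
  have h1 := congrFun (congrFun h0 m) y
  simp only [Matrix.mul_apply, L, K, Matrix.of_apply, Matrix.zero_apply] at h1
  exact_mod_cast h1

theorem hPF (u v : Fin 10 → ℂ) (c : (Fin 6 × Fin 6) × (Fin 6 × Fin 6) → ℂ)
    (hc : ∀ q : Fin 10 × Fin 10, u q.1 * v q.2 = ∑ a, c a * (L Cc a.1 * K Cc a.2) q.2 q.1) :
    u = 0 ∨ v = 0 := by
  have : Fact (Nat.Prime 68749) := ⟨Mds19x94.prime19⟩
  exact Lap70.pf Cc 68749 zz ww Bi hB hMx
    (fun k _ _ u v h => Mds19x94.mds19Z (fun i a => Lap70.sq (ww i) a) hx k u v h) u v c hc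

theorem s0541 : ∃ Φ₁ Φ₂ : Matrix (Fin 10) (Fin 10) ℂ → Matrix (Fin 10) (Fin 10) ℂ,
      IsLinearMap ℂ Φ₁ ∧ IsLinearMap ℂ Φ₂ ∧ IsPPT Φ₁ ∧ IsPPT Φ₂ ∧
      choiMatrix (Φ₂ ∘ Φ₁) ≠ 0 ∧
      (∀ u v : Fin 10 → ℂ, (∃ w, (choiMatrix (Φ₂ ∘ Φ₁)).mulVec w = fun p => u p.1 * v p.2) →
        u = 0 ∨ v = 0) ∧
      ¬ IsEntanglementBreaking (Φ₂ ∘ Φ₁) :=
  s0541_all (K Cc) (K Cc) (L Cc) (L Cc) (hK Cc hC) (hL Cc hC) hPF hne

theorem s0540 : ∃ Θ : Matrix (Fin 21) (Fin 21) ℂ → Matrix (Fin 21) (Fin 21) ℂ,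
      IsChannel Θ ∧ IsPPT Θ ∧ ¬ IsEntanglementBreaking (Θ ∘ Θ) :=
  s0540_all (K Cc) (K Cc) (L Cc) (L Cc) (hK Cc hC) (hL Cc hC) hPF hne

end Crest.Agent.P345.Asm94
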