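import Crest.Agent.P345.Lap70

/-! Row 345 (helper53): small integer member (Z_5 family, `z = -692796 - 398631 i`,
`alpha = 745883 + 287283 i`), points modulo `p = 200201`. -/

set_option autoImplicit false

namespace Crest.Agent.P345.D53

open Crest.Agent.P345HK34 Crest.Agent.P345.Lap70

def C : Fin 4 → Fin 6 → Fin 4 → ℤ := ![![![-692795, -398631, 0, 0], ![-398631, 692797, 0, 0], ![0, 0, -692795, -398631], ![0, 0, 398631, -692795], ![745883, -287283, -692795, 398631], ![287283, 745883, 398631, 692795]], ![![398631, -692795, 0, 0], ![-692797, -398631, 0, 0], ![0, 0, 398631, -692795], ![0, 0, 692795, 398631], ![-287283, -745883, 398631, 692795], ![745883, -287283, 692795, -398631]], ![![0, 0, 2, 0], ![0, 0, 0, 0], ![1, 0, 1, -1], ![0, -1, -1, -1], ![1, 0, 0, 0], ![0, -1, 0, 0]], ![![0, 0, 0, 2], ![0, 0, 0, 0], ![0, 1, -1, -1], ![1, 0, -1, 1], ![0, -1, 0, 0], ![-1, 0, 0, 0]]]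

def w : Fin 20 → Fin 4 → ℤ := ![![1, 20518, 46172, 123847], ![1, 124677, 5637, 29150], ![1, 155876, 1688, 138571], ![1, 3985, 183081, 154087], ![1, 188577, 100974, 28040], ![1, 174225, 179817, 31039], ![1, 173898, 190106, 105504], ![1, 64965, 78109, 9081], ![1, 58005, 6537, 132333], ![1, 65081, 197773, 5909], ![1, 14004, 27513, 139964], ![1, 131465, 52225, 43309], ![1, 110366, 189865, 189509], ![1, 13865, 133512, 19682], ![1, 115126, 30318, 67705], ![1, 118733, 120102, 14500], ![1, 113793, 147098, 193576], ![1, 10447, 185779, 159845], ![1, 108770, 165078, 152785], ![1, 180329, 102556, 111852]]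

def z : Fin 15 → Fin 4 → ℤ := ![![2, 0, 0, 2], ![-2, 1, -1, -2], ![-1, -2, 0, 1], ![-1, 1, 2, -2], ![2, -1, -2, -1], ![1, 0, -1, 1], ![-1, -2, -1, 2], ![2, 1, -1, -1], ![-2, -2, -1, -1], ![-1, -1, 0, 0], ![-1, 2, -1, -1], ![-1, 1, 0, -2], ![0, 1, -1, -1], ![0, -2, 0, 0], ![2, 2, -2, 2]]

def Bi : Fin 15 → Fin 15 → ℤ := ![![27839, 17953, 117905, 41669, 34708, 37000, 127597, 199916, 19418, 7368, 176572, 94894, 177027, 110868, 107277], ![84942, 64674, 101653, 163687, 144053, 61953, 198819, 65081, 163607, 82690, 125057, 145751, 59625, 76388, 55672], ![141969, 75159, 173052, 140294, 178682, 80077, 144321, 161766, 62186, 24762, 40802, 133856, 145007, 68133, 11439], ![14563, 53039, 95514, 40442, 168245, 116666, 139093, 135667, 6901, 133354, 149987, 171715, 193071, 148834, 123812], ![109429, 100025, 42822, 121760, 53541, 41942, 68211, 155225, 91891, 27642, 95999, 78281, 39295, 43004, 134194], ![185664, 62805, 118394, 94386, 165130, 68835, 14293, 84276, 145726, 165727, 114668, 62293, 38548, 93492, 35055], ![51358, 24690,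 176421, 171991, 115784, 57186, 66250, 36156, 64553, 16255, 134747, 82362, 42662, 90782, 4362], ![149461, 25015, 199568, 116661, 49813, 185208, 176723, 108637, 156947, 108509, 90239, 112843, 123329, 174364, 141694], ![98516, 98631, 85688, 93737, 82715, 128233, 52345, 185457, 185317, 137090, 100021, 150717, 109113, 128722, 45371], ![85812, 110905, 142069, 190574, 87893, 14133, 190156, 126570, 127924, 183162, 104930, 117286, 93520, 177942, 121893], ![9394, 43623, 35204, 95229, 86760, 168425, 148669, 83699, 20451, 170443, 165030, 146848, 34476, 42358, 63909], ![90556, 50422, 187383, 81956, 124397, 7424, 192909, 124730, 40782, 113298, 133209, 60246, 116797, 79915, 171210], ![145790, 104575, 16042, 13899, 196265, 105376, 92320, 76687, 92686, 32291, 131048, 23334, 137705, 85244, 58381], ![147415, 16816, 35267, 140122, 182302, 74698, 178074, 63581, 115928, 22940, 16266, 21714, 58698, 179236, 170919], ![45081, 139739, 118035, 125363, 183056, 139519, 52847, 145904, 170122, 46987, 133139, 19897, 169221, 22700, 177306]]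

theorem hC : ∀ i j k l, ∑ r, C i r k * C j r l = ∑ r, C i r l * C j r k := by
  decide +kernel

theorem hMx : ∀ i c, Dz C (w i) c % ((200201 : ℕ) : ℤ) = 0 := by
  decide +kernel

theorem hB : ∀ i c, ((∑ j, Bi i j * Dz C (z j) c) - if i = c then 1 else 0) % ((200201 : ℕ) : ℤ) = 0 := by
  decide +kernel

end Crest.Agent.P345.D53
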