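import Mathlib
import Crest.Agent.P345.Asm64
import Crest.Agent.P345.Mds21

set_option autoImplicit false
set_option maxHeartbeats 4000000
set_option maxRecDepth 100000

/-! Row 345 (helper21): instance of helper64's `s0541_main` at helper19's Data19 (p = 68749). -/

namespace Crest.Agent.P345.Fin21

open Crest.Agent.P345Asm64 Crest.Quantum

def C : Fin 4 → Fin 6 → Fin 4 → ℤ := ![![![2, 0, 0, 0], ![0, -6, 0, 0], ![0, 0, 0, 0], ![0, 0, 0, 0], ![0, 0, 4, 0], ![0, 0, 0, -4]], ![![0, 0, 6, -6], ![0, 0, -2, 2], ![0, 0, -2, 4], ![6, -6, -4, -2], ![3, 3, 2, 4], ![3, 3, -4, 2]], ![![0, 0, 6, 6], ![0, 0, -2, -2], ![6, -6, 4, 2], ![0, 0, -2, 4], ![3, 3, 4, -2], ![-3, -3, 2, 4]], ![![1, 0, 0, 0], ![0, 3, 0, 0], ![0, 0, 1, 1], ![0, 0, 1, -1], ![0, 0, 0, 0], ![0, 0, 0, 0]]]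

def Z : Fin 15 → Fin 4 → ℤ := ![![2, 0, 0, 2], ![-2, 1, -1, -2], ![-1, -2, 0, 1], ![-1, 1, 2, -2], ![2, -1, -2, -1], ![1, 0, -1, 1], ![-1, -2, -1, 2], ![2, 1, -1, -1], ![-2, -2, -1, -1], ![-1, -1, 0, 0], ![-1, 2, -1, -1], ![-1, 1, 0, -2], ![0, 1, -1, -1], ![0, -2, 0, 0], ![2, 2, -2, 2]]

def Bi : Fin 15 → Fin 15 → ℤ := ![![17295, 11455, 65593, 64291, 35383, 20202, 3835, 55084, 53313, 28676, 30679, 34365, 61545, 14549, 21506], ![16776, 23236, 42724, 21718, 31975, 24119, 28014, 13214, 64654, 56376, 32665, 22653, 66970, 8041, 8042], ![17483, 5058, 64987, 57556, 43585, 57594, 16885, 8136, 46662, 47042, 4857, 47299, 52834, 8139, 46782], ![57309, 65319, 68577, 56426, 19801, 29104, 6852, 37671, 5243, 66728, 53238, 5896, 2337, 44276, 51133], ![4976, 61401, 35388, 35751, 43449, 28601, 45797, 65402, 21978, 26172, 22562, 24843, 37944, 24270, 46800], ![29898, 18255, 50513, 20282, 65305, 28734, 38715, 32406, 55853, 49449, 54609,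 33635, 47984, 42106, 53438], ![7685, 13689, 49491, 9648, 48529, 2311, 3959, 45682, 31905, 64945, 2267, 6168, 1188, 15636, 40182], ![9469, 51031, 20116, 15834, 20238, 43354, 23836, 45835, 14158, 41139, 27825, 49355, 24870, 3326, 33784], ![38334, 67438, 9871, 49538, 46868, 35888, 22509, 32042, 32409, 4930, 28879, 4851, 65812, 59278, 59204], ![13806, 43411, 64042, 36292, 30610, 37475, 8002, 10995, 49606, 33790, 57898, 39213, 1821, 11692, 43221], ![3605, 42597, 7538, 43105, 22070, 38882, 17037, 12764, 36506, 23739, 64750, 4777, 1956, 34839, 48166], ![60147, 50348, 56062, 46603, 29674, 66912, 4815, 3797, 46728, 54690, 32556, 33206, 44079, 31426, 53619], ![32239, 47219, 36020, 45407, 48077, 32102, 13387, 56048, 44064, 21633, 65144, 47288, 52528, 18100, 21812], ![37013, 50464, 11000, 37971, 52624, 37621, 6959, 4869, 34436, 44658, 38647, 54625, 40088, 49639, 47038], ![43558, 31123, 23827, 52233, 39609, 8824, 10772, 28317,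 8404, 17789, 9425, 66745, 44372, 57108, 20234]]

/-- the minors at the test points -/
def MT : Fin 15 → Fin 15 → ℤ := ![![288, 576, 576, -576, 576, 2304, 0, 0, 0, 0, 0, 0, 0, 0, 0], ![-4608, -1152, -4608, 5184, 1152, -4896, 4032, -8064, -6048, 10080, -4032, -1152, 3744, 288, 8064], ![-3198, -480, -1848, 28464, -1704, -16704, 2772, 4596, -912, -42384, 13428, -2988, -8208, 19440, 21888], ![2592, 432, 3696, 2160, 1200, -2880, -39744, 4704, 57456, 22320, 11664, -3888, -17280, -8640, 38448], ![-16506, 20106, -65862, 20466, -27882, -47700, -18234, -738, 73656, 31716, -7866, 36702, -13320, -32220, 40896], ![-738, 54, -486, 522, -270, -324, -1782, 1278, 1080, -252, 306, 198, -216, -252, 1008], ![-21600, -1296, -2160, 29808, 6480, -2592, 32400, 10800, -2592, -5184, 7776, -8640, -1296, 14256, 16848], ![8370, -3888, 10692, 5508, -2592, -5832, -648, -6588, 3888, -4536, 3240, -540, -3888, 648, 2592], ![-25530, -2958, -11082,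 26574, -594, -11604, 47190, 22890, -17832, -24924, 6966, -10566, -4248, 10836, 25776], ![-624, 144, -480, 2688, -432, -1968, 168, 792, -312, -3528, 1368, -504, -936, 1224, 1872], ![-6066, -1098, -6750, -846, -1422, 684, -12150, -48042, 4824, -3852, 18, 11646, 2088, 1620, 23184], ![96, -48, -48, -48, -48, 0, -288, -192, -48, -48, 144, 144, 0, 0, -144], ![2514, 360, 2844, -564, -936, 504, 408, -8844, -1728, 2136, 1224, 3636, -864, -360, 4896], ![0, 0, 0, 0, 0, 0, 6912, 6912, 0, -27648, -2304, -2304, 0, 9216, 16128], ![8352, 576, 29952, 3456, -4032, -12672, -8064, -68544, 24192, -32256, 8064, 35136, -26496, 18432, 32256]]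

def A4 (w : Fin 4 → ℤ) (c : Fin 6) (q : Fin 4) : ℤ :=
  w 0 * C 0 c q + w 1 * C 1 c q + w 2 * C 2 c q + w 3 * C 3 c q

theorem AA_eq (w : Fin 4 → ℤ) (c : Fin 6) (q : Fin 4) : AA C w c q = A4 w c q := by
  simp only [AA, A4, Fin.sum_univ_four]

def d2 (a b : Fin 4 → ℤ) (i j : Fin 4) : ℤ := a i * b j - a j * b i

def dt (a b c d : Fin 4 → ℤ) : ℤ :=
  d2 a b 0 1 * d2 c d 2 3 - d2 a b 0 2 * d2 c d 1 3 + d2 a b 0 3 * d2 c d 1 2
  + d2 a b 1 2 * d2 c d 0 3 - d2 a b 1 3 * d2 c d 0 2 + d2 a b 2 3 * d2 c d 0 1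

theorem mdet_eq (w : Fin 4 → ℤ) (t : Fin 4 → Fin 6) :
    mdet C w t = dt (A4 w (t 0)) (A4 w (t 1)) (A4 w (t 2)) (A4 w (t 3)) := by
  simp only [mdet, AA_eq, dt, d2]
  simp [Matrix.det_succ_row_zero, Fin.sum_univ_succ, Fin.succAbove]
  ring

theorem hs : ∀ a b q r, MM C a b q r = MM C a b r q := by
  decide +kernel

theorem hMx0 : ∀ (i : Fin 20) (c : Fin 15),
    dt (A4 (Mds21.W i) (tb c 0)) (A4 (Mds21.W i) (tb c 1)) (A4 (Mds21.W i) (tb c 2))
      (A4 (Mds21.W i) (tb c 3)) % 68749 = 0 := by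
  decide +kernel

theorem hMT : ∀ (j : Fin 15) (c : Fin 15),
    dt (A4 (Z j) (tb c 0)) (A4 (Z j) (tb c 1)) (A4 (Z j) (tb c 2)) (A4 (Z j) (tb c 3)) = MT j c := by
  decide +kernel

theorem hB0 : ∀ i c : Fin 15,
    ((Bi i 0 * MT 0 c + Bi i 1 * MT 1 c + Bi i 2 * MT 2 c + Bi i 3 * MT 3 c + Bi i 4 * MT 4 c
      + Bi i 5 * MT 5 c + Bi i 6 * MT 6 c + Bi i 7 * MT 7 c + Bi i 8 * MT 8 c + Bi i 9 * MT 9 c
      + Bi i 10 * MT 10 c + Bi i 11 * MT 11 c + Bi i 12 * MT 12 c + Bi i 13 * MT 13 c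
      + Bi i 14 * MT 14 c) - if i = c then 1 else 0) % 68749 = 0 := by
  decide +kernel

theorem hMx : ∀ (i : Fin 20) (c : Fin 15), mdet C (Mds21.W i) (tb c) % ((68749 : ℕ) : ℤ) = 0 := by
  intro i c
  rw [mdet_eq]
  exact hMx0 i c

theorem sum15 (f : Fin 15 → ℤ) : ∑ j, f j = f 0 + f 1 + f 2 + f 3 + f 4 + f 5 + f 6 + f 7 + f 8 + f 9
    + f 10 + f 11 + f 12 + f 13 + f 14 := by
  simp only [Fin.sum_univ_castSucc, Fin.sum_univ_zero, zero_add]
  rfl

theorem hB : ∀ i c : Fin 15,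
    ((∑ j, Bi i j * mdet C (Z j) (tb c)) - if i = c then 1 else 0) % ((68749 : ℕ) : ℤ) = 0 := by
  intro i c
  have h : ∀ j, Bi i j * mdet C (Z j) (tb c) = Bi i j * MT j c := by
    intro j
    rw [mdet_eq, hMT]
  rw [Finset.sum_congr rfl (fun j _ => h j), sum15]
  exact hB0 i c

theorem hne : ∃ T S J I, ∑ x, Lz C T J x * Kz C S x I ≠ 0 := by
  refine ⟨(0, 1), (0, 1), 1, 8, ?_⟩
  decide +kernel

theorem both := s0541_main C hs 68749 Mds21.W Z Bi hB hMx
  (fun k _ _ u v h => Mds21.hk k u v h) hne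

end Crest.Agent.P345.Fin21
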